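import Vale.Agent.P139.A1
import Vale.Agent.P139.A2
import Vale.Agent.P139.Ang
import Vale.Agent.P139.B
import Vale.Agent.P139.C
import Vale.Agent.P139.E

open MeasureTheory ProbabilityTheory
open scoped NNReal

namespace Vale.Agent.Results.P139.A_full

open Vale.Agent.P139

theorem result (v : ℝ≥0) (hv : v ≠ 0) :
    (∃ p : ℕ, Odd p ∧ 3 ≤ p ∧ 1 < (12 : ℝ) / 2 - 2 / ((p : ℝ) - 1) ∧ ∀ α : ℝ, 33 < α →
      ∀ (Ω : Type) [MeasurableSpace Ω] (P : Measure Ω) [IsProbabilityMeasure P]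
        (g : (Fin 12 → ℤ) → Ω → ℂ), iIndepFun g P → (∀ n, HasLaw (g n) (cGauss v) P) →
          ¬ ∀ᵐ ω ∂P, IsGlobal p (datum α fun n => g n ω)) ∧
    ¬ ∀ d p : ℕ, 1 ≤ d → Odd p → 3 ≤ p → 1 < (d : ℝ) / 2 - 2 / ((p : ℝ) - 1) →
      ∃ α₀ : ℝ, ∀ α : ℝ, α₀ < α → ASGlobal d p v α := by
  obtain ⟨C, hC, hB⟩ := prof_main
  obtain ⟨ε, hε, hR⟩ := rms_main C hC
  obtain ⟨m, Q, X0, hG⟩ := hB ε hε
  obtain ⟨H⟩ := ex_hat Q
  have hb : Blow m := blow_main H fun ε hε => lin_main H (ang_main Q (hR m Q X0 hG)) hε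
  have hm : (1 : ℝ) ≤ m := by exact_mod_cast Q.m_pos
  have h3 : 3 ≤ 2 * m + 1 := by have := Q.m_pos; omega
  have hs : 1 < (12 : ℝ) / 2 - 2 / (((2 * m + 1 : ℕ) : ℝ) - 1) := by
    have : (2 : ℝ) / (((2 * m + 1 : ℕ) : ℝ) - 1) ≤ 1 := by
      push_cast
      rw [div_le_one (by linarith)]
      linarith
    linarith
  refine ⟨⟨2 * m + 1, odd_two_mul_add_one m, h3, hs, fun α hα Ω _ P _ g hi hl =>
    prob_main hb hv hα Ω P g hi hl⟩, fun h => ?_⟩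
  obtain ⟨α₀, h0⟩ := h 12 (2 * m + 1) (by norm_num) (odd_two_mul_add_one m) h3 (by exact_mod_cast hs)
  obtain ⟨Ω, _, P, _, g, hi, hl⟩ := ex_family v
  exact prob_main hb hv (α := max α₀ 33 + 1) (by linarith [le_max_right α₀ 33]) Ω P g hi hl
    (h0 _ (by linarith [le_max_left α₀ 33]) Ω P g hi hl)

end Vale.Agent.Results.P139.A_full
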