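import Vale.Agent.P139.B
import Vale.Agent.P139.C

open Set Complex
open scoped ContDiff

namespace Vale.Agent.Results.P139.B_profile

open Vale.Agent.P139

theorem result (M : ℕ) : ∃ m : ℕ, M ≤ m ∧ ∃ (β : ℝ) (q : ℝ → ℂ), 0 < β ∧
    (∃ δ > 0, ContDiffOn ℝ ∞ q (Ioi (-δ))) ∧
    (∀ X : ℝ, 0 ≤ X → X * deriv (deriv q) X + (6 + I * X) * deriv q X +
      (β + I * (1 / (2 * m) : ℝ)) * q X = (normSq (q X) : ℂ) ^ m * q X) ∧
    (∀ X : ℝ, 0 ≤ X → q X ≠ 0) ∧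
    ∀ j : ℕ, ∃ C : ℝ, ∀ X : ℝ, 1 ≤ X → ‖iteratedDeriv j q X‖ ≤ C * X ^ (-(1 / (2 * m) : ℝ) - j) := by
  obtain ⟨C, -, h⟩ := prof_main
  obtain ⟨m, Q, X0, hG⟩ := h (1 / (2 * (M + 1))) (by positivity)
  have hm : (1 : ℝ) ≤ m := by exact_mod_cast Q.m_pos
  have h1 := hG.a_le
  rw [aa, one_div_le_one_div (by positivity) (by positivity)] at h1
  have h2 := hG.box.2.1
  rw [βlo] at h2
  exact ⟨m, by exact_mod_cast (show (M : ℝ) ≤ m by linarith), Q.β, Q.q, by linarith, Q.smooth, Q.ode,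
    Q.ne, Q.symb⟩

end Vale.Agent.Results.P139.B_profile
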